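import Vale.Agent.P224.S7.Piv.Dn

/-!
Column function f 4 0 0 0 1 (m = 7): kernel-checked polynomial approximant on `(0, 1)`.
-/

namespace Vale.Agent.P224.S7.K02

open Vale.Agent.P224.SP Vale.Agent.P224.S7

/-- coefficient lists over `DnL` -/
def r : Q4 := ⟨
  [86333659776, -363034225260, -774762430428, 725657620212, 1350463703652, -362594451240,
  -652803031944, 2352127176, -81281457432, -4461048540, 74956905972, 2161591812, -2936865996,
  -82434960, 29516400, 820800],
  [0, 680411226600, 1458024057000, -433606280436, -2706557070420, -1119773366712,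
  1018400978952, 791219239776, 226129488480, 84945786912, 4320092448, -3220420140, -320192460,
  23814000, 2646000],
  [79692609024, -214974370548, -856632016548, -78182399232, 1315749536640, 739960790184,
  -425077031736, -447420356208, -117506625264, 309877164, 3798724284, 309223440, -25196400,
  -2764800],
  [-159385218048, -182154534912, 777409532928, 914490114048, -1117264821120, -1407515526144,
  526250027520, 802502249472, -13127208192, -129645702144, -14172738048, 2323399680, 290424960]⟩

/-- reduced coefficient lists -/
def N : Q4 := ⟨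
  [13983424, -60798122, -102533676, 72181606, 94648064, -12342302, 5400508, -361782, -11543920,
  1320600, 45600],
  [0, 110205900, 220411800, 10736586, -198938628, -112112784, -25286940, -12496470, 294000,
  147000],
  [12907776, -36663270, -120339492, -31001712, 89136852, 58651278, 11771280, -324600, -153600],
  [-25815552, -25815552, 103262208, 103262208, -93581376, -93581376, 16134720, 16134720]⟩

/-- approximant (times `DD`) -/
def B : List ℤ :=
  [18657018353, 14038615044, -55565334272, -33606463680, 14056858442, -4276382413,
  -19626782059, 21069574702, -10056996802, 1781725091, 851886544, -581176162, 107236924]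

/-- error (times `DD`) -/
def E : ℤ := 82

/-- test list -/
def n0 : List ℤ :=
  [405988535050064477, -2222864199749895786, -3273180055703575248, 2958663728456860158,
  3105778627127592437, -820678297681381321, 262600993395731879, 19279812678337764,
  -547260495999107310, 106152260636325050, 30360046788042545, -40118803664632420,
  17823140079311980, -1154864153179415, -2047709153702380, 720363477565970, -63081584358380]

/-- test list -/
def n1 : List ℤ :=
  [0, 3805135372497715200, 7610270744995430400, 370707586149777408, -6868855572695875584,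
  -3870975329883389952, -873095087070904320, -431471999487836160, 10151088095232000,
  5075544047616000]

/-- test list -/
def n2 : List ℤ :=
  [445673371733065728, -1265891440915906560, -4155023076964171776, -1070411937466023936,
  3077673595862777856, 2025082618625654784, 406432994128035840, -11207629917388800,
  -5303425617100800]

/-- test list -/
def n3 : List ℤ :=
  [-891346743466131456, -891346743466131456, 3565386973864525824, 3565386973864525824,
  -3231131945064726528, -3231131945064726528, 557091714666332160, 557091714666332160]

/-- weight list -/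
def wt : List ℤ :=
  [337652630, -48236090, -675305260, 96472180, 337652630, -48236090]

/-- factor -/
def fac : List ℤ := [6174, 882, -6300, -900, 126, 18]

lemma e0 : eqL n0 (addL (smulL DD N.n0) (smulL (-1) (mulL B (dnL 588245 0 1 2 1 0)))) = true := by
  decide +kernel

lemma e1 : eqL n1 (smulL DD N.n1) = true := by
  decide +kernel

lemma e2 : eqL n2 (smulL DD N.n2) = true := by
  decide +kernel

lemma e3 : eqL n3 (smulL DD N.n3) = true := by
  decide +kernel

lemma e4 : eqL wt (smulL E (mulL (powZ 1) (dnL 588245 0 1 2 1 0))) = true := by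
  decide +kernel

lemma hv : vanT n1 n2 n3 [] [] 0 0 = true := by
  decide +kernel

lemma h0 : chkL05 n0 n1 n2 n3 wt 0 = true := by
  decide +kernel

lemma h6 : chkLp5 n0 n1 n2 n3 wt 0 6 1 2 128 = true := by
  decide +kernel

lemma h5 : chkLp5 n0 n1 n2 n3 wt 0 5 1 2 64 = true := by
  decide +kernel

lemma h4 : chkLp5 n0 n1 n2 n3 wt 0 4 1 2 32 = true := by
  decide +kernel

lemma h3 : chkLp5 n0 n1 n2 n3 wt 0 3 1 2 16 = true := by
  decide +kernel

lemma h2 : chkLp5 n0 n1 n2 n3 wt 0 2 1 2 8 = true := by
  decide +kernel

lemma r1 : chkN 1 1 4 4 (addL (rW5 n1 n2 n3 wt 0) (rM n0 n1 n2 n3 [] [] 0)) = true := by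
  decide +kernel

lemma r2 : chkN 1 1 4 4 (addL (rW5 n1 n2 n3 wt 0)
      (smulL (-1) (rM n0 n1 n2 n3 [] [] 0))) = true := by
  decide +kernel

lemma d0 : eqL r.n0 (mulL fac N.n0) = true := by
  decide +kernel

lemma d1 : eqL r.n1 (mulL fac N.n1) = true := by
  decide +kernel

lemma d2 : eqL r.n2 (mulL fac N.n2) = true := by
  decide +kernel

lemma d3 : eqL r.n3 (mulL fac N.n3) = true := by
  decide +kernel

lemma dd : eqL DnL (mulL fac (dnL 588245 0 1 2 1 0)) = true := by
  decide +kernel

theorem eq {T : ℝ} (h0 : 0 < T) (h1 : T < 1) :
    G4 r T / ev DnL T = qf N 588245 0 1 2 1 0 T :=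
  G4_div_eq (by norm_num) d0 d1 d2 d3 dd h0 h1

theorem bd {T : ℝ} (hT0 : 0 < T) (hT1 : T < 1) :
    |(DD : ℝ) * (G4 r T / ev DnL T) - ev B T| ≤ E * (1 - T) ^ 1 := by
  rw [eq hT0 hT1]
  exact qf_bd (by norm_num) e0 e1 e2 e3 e4 (q := 1) (by norm_num) (by norm_num) hv h0
    h6 h5 h4 h3 h2 r1 r2 hT0 hT1

end Vale.Agent.P224.S7.K02
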