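import Vale.Agent.P224.S7.Piv.Dn

/-!
Column function f 3 0 1 0 1 (m = 7): kernel-checked polynomial approximant on `(0, 1)`.
-/

namespace Vale.Agent.P224.S7.K03

open Vale.Agent.P224.SP Vale.Agent.P224.S7

/-- coefficient lists over `DnL` -/
def r : Q4 := ⟨
  [20753283600, -154285839792, -125146535472, 322156307088, 192946588128, -125121691296,
  -91986856416, -101393230176, 1889956944, 60979117968, 1607935248, -2358276912, -65028672,
  23613120, 656640],
  [-24903940320, -53365586400, -397395733392, -786507094800, -132946174368, 669567929184,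
  488495375424, 166910442048, 69281085888, 3645383616, -2549664432, -253190448, 19051200,
  2116800],
  [12451970160, -139817836368, -61802431488, 492328392192, 369493155360, -264196326240,
  -320104951488, -91249889472, -279812880, 2955817008, 244282176, -20157120, -2211840],
  [0, 318770436096, 364309069824, -678200366592, -827130286080, 389401786368, 563192082432,
  -19051877376, -102229585920, -11152318464, 1858719744, 232339968]⟩

/-- reduced coefficient lists -/
def N : Q4 := ⟨
  [3361400, -25469808, -13201384, 28565824, 9918440, 6051568, -1134936, -9184064, 1056480,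
  36480],
  [-4033680, -8067360, -67329528, -126591696, -73245984, -19900272, -9832536, 235200, 117600],
  [2016840, -22934352, -4675776, 57301776, 43505112, 9244992, -259680, -122880],
  [0, 51631104, 51631104, -64538880, -64538880, 12907776, 12907776]⟩

/-- approximant (times `DD`) -/
def B : List ℤ :=
  [-123617719, -37384860210, -23066248111, 11315098004, -2346990724, -19517897489, 22264957920,
  -13072208063, 4941208038, -1098696400, 107196258]

/-- error (times `DD`) -/
def E : ℤ := 952

/-- test list -/
def n0 : List ℤ :=
  [116569796424611285, -725032559175839544, -229463686679300927, 844758109059254852,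
  71762115457516995, 291426575417265939, -19519372634940143, -448648868298925847,
  99539877339686630, 16891355079071305, -32545676641863000, 19580739278632035,
  -6279995602923630, 1024648640541260, -63057662787210]

/-- test list -/
def n1 : List ℤ :=
  [-139272928666583040, -278545857333166080, -2324720986865270784, -4370896116397375488,
  -2529001483693719552, -687106850990063616, -339492990256939008, 8120870476185600,
  4060435238092800]

/-- test list -/
def n2 : List ℤ :=
  [69636464333291520, -791866080132857856, -161442905066569728, 1978487674113097728,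
  1502123212601819136, 319206558611275776, -8966103933911040, -4242740493680640]

/-- test list -/
def n3 : List ℤ :=
  [0, 1782693486932262912, 1782693486932262912, -2228366858665328640, -2228366858665328640,
  445673371733065728, 445673371733065728]

/-- weight list -/
def wt : List ℤ :=
  [3920064680, -560009240, -7840129360, 1120018480, 3920064680, -560009240]

/-- factor -/
def fac : List ℤ := [6174, 882, -6300, -900, 126, 18]

lemma e0 : eqL n0 (addL (smulL DD N.n0) (smulL (-1) (mulL B (dnL 588245 0 1 2 1 0)))) = true := by
  decide +kernel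

lemma e1 : eqL n1 (smulL DD N.n1) = true := by
  decide +kernel

lemma e2 : eqL n2 (smulL DD N.n2) = true := by
  decide +kernel

lemma e3 : eqL n3 (smulL DD N.n3) = true := by
  decide +kernel

lemma e4 : eqL wt (smulL E (mulL (powZ 1) (dnL 588245 0 1 2 1 0))) = true := by
  decide +kernel

lemma hv : vanT n1 n2 n3 [] [] 0 0 = true := by
  decide +kernel

lemma h0 : chkL05 n0 n1 n2 n3 wt 0 = true := by
  decide +kernel

lemma h6 : chkLp5 n0 n1 n2 n3 wt 0 6 1 2 128 = true := by
  decide +kernel

lemma h5 : chkLp5 n0 n1 n2 n3 wt 0 5 1 2 64 = true := by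
  decide +kernel

lemma h4 : chkLp5 n0 n1 n2 n3 wt 0 4 1 2 32 = true := by
  decide +kernel

lemma h3 : chkLp5 n0 n1 n2 n3 wt 0 3 1 2 16 = true := by
  decide +kernel

lemma h2 : chkLp5 n0 n1 n2 n3 wt 0 2 1 2 8 = true := by
  decide +kernel

lemma r1 : chkN 1 1 4 4 (addL (rW5 n1 n2 n3 wt 0) (rM n0 n1 n2 n3 [] [] 0)) = true := by
  decide +kernel

lemma r2 : chkN 1 1 4 4 (addL (rW5 n1 n2 n3 wt 0)
      (smulL (-1) (rM n0 n1 n2 n3 [] [] 0))) = true := by
  decide +kernel

lemma d0 : eqL r.n0 (mulL fac N.n0) = true := by
  decide +kernel

lemma d1 : eqL r.n1 (mulL fac N.n1) = true := by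
  decide +kernel

lemma d2 : eqL r.n2 (mulL fac N.n2) = true := by
  decide +kernel

lemma d3 : eqL r.n3 (mulL fac N.n3) = true := by
  decide +kernel

lemma dd : eqL DnL (mulL fac (dnL 588245 0 1 2 1 0)) = true := by
  decide +kernel

theorem eq {T : ℝ} (h0 : 0 < T) (h1 : T < 1) :
    G4 r T / ev DnL T = qf N 588245 0 1 2 1 0 T :=
  G4_div_eq (by norm_num) d0 d1 d2 d3 dd h0 h1

theorem bd {T : ℝ} (hT0 : 0 < T) (hT1 : T < 1) :
    |(DD : ℝ) * (G4 r T / ev DnL T) - ev B T| ≤ E * (1 - T) ^ 1 := by
  rw [eq hT0 hT1]
  exact qf_bd (by norm_num) e0 e1 e2 e3 e4 (q := 1) (by norm_num) (by norm_num) hv h0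
    h6 h5 h4 h3 h2 r1 r2 hT0 hT1

end Vale.Agent.P224.S7.K03
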