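import Vale.Agent.P224.S7.Piv.Dn

/-!
Column function f 4 0 1 0 1 (m = 7): kernel-checked polynomial approximant on `(0, 1)`.
-/

namespace Vale.Agent.P224.S7.K04

open Vale.Agent.P224.SP Vale.Agent.P224.S7

/-- coefficient lists over `DnL` -/
def r : Q4 := ⟨
  [15564962700, -331548529284, -196885130904, 689866979256, 361478895876, -268833111372,
  -191691847872, -210507886512, 8533184148, 125838538596, 3130824456, -4864692744, -132242724,
  48702060, 1354320],
  [-18677955240, -40024189800, -786341915604, -1636226997300, -308988041796, 1329268633308,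
  976826645928, 339999135336, 142377068736, 7498636992, -5235095124, -519584436, 39293100,
  4365900],
  [9338977620, -304094899836, -115282372716, 1010078044164, 747063754920, -527618803320,
  -640920353976, -184333010904, -693745020, 6010243956, 498301092, -41574060, -4561920],
  [0, 637540872192, 728618139648, -1356400733184, -1654260572160, 778803572736, 1126384164864,
  -38103754752, -204459171840, -22304636928, 3717439488, 464679936]⟩

/-- reduced coefficient lists -/
def N : Q4 := ⟨
  [2521050, -54060916, -21593908, 60025588, 20006840, 12797836, -3112972, -18837748, 2178990,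
  75240],
  [-3025260, -6050520, -129586086, -253121652, -146937378, -40753104, -20134002, 485100,
  242550],
  [1512630, -49470204, -10061562, 114779952, 87095274, 18760524, -535590, -253440],
  [0, 103262208, 103262208, -129077760, -129077760, 25815552, 25815552]⟩

/-- approximant (times `DD`) -/
def B : List ℤ :=
  [-92713639, -74681151440, -46376148196, 22529355410, -6643627087, -29788568655, 20839932801,
  15934777714, -42062718971, 41388745404, -23466089551, 7509164197, -1055074979]

/-- error (times `DD`) -/
def E : ℤ := 357

/-- test list -/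
def n0 : List ℤ :=
  [87427348758629285, -1558745918834122718, -291471547845422924, 1791674139242614704,
  156851614000813620, 574256571240324903, -12625639978125881, -966474408947153064,
  189038180284069830, 146695217560051615, -203416805646619740, 88843383314578655,
  38234168887495210, -68107899797098700, 35342038958138745, -8141083779195395, 620642581021855]

/-- test list -/
def n1 : List ℤ :=
  [-104454696499937280, -208909392999874560, -4474284948647313408, -8739660504294752256,
  -5073381865851715584, -1407103227408678912, -695176966025773056, 16749295357132800,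
  8374647678566400]

/-- test list -/
def n2 : List ℤ :=
  [52227348249968640, -1708082989432307712, -347400687883124736, 3963066001083334656,
  3007182989974044672, 647754189920796672, -18492589363691520, -8750652268216320]

/-- test list -/
def n3 : List ℤ :=
  [0, 3565386973864525824, 3565386973864525824, -4456733717330657280, -4456733717330657280,
  891346743466131456, 891346743466131456]

/-- weight list -/
def wt : List ℤ :=
  [1470024255, -210003465, -2940048510, 420006930, 1470024255, -210003465]

/-- factor -/
def fac : List ℤ := [6174, 882, -6300, -900, 126, 18]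

lemma e0 : eqL n0 (addL (smulL DD N.n0) (smulL (-1) (mulL B (dnL 588245 0 1 2 1 0)))) = true := by
  decide +kernel

lemma e1 : eqL n1 (smulL DD N.n1) = true := by
  decide +kernel

lemma e2 : eqL n2 (smulL DD N.n2) = true := by
  decide +kernel

lemma e3 : eqL n3 (smulL DD N.n3) = true := by
  decide +kernel

lemma e4 : eqL wt (smulL E (mulL (powZ 1) (dnL 588245 0 1 2 1 0))) = true := by
  decide +kernel

lemma hv : vanT n1 n2 n3 [] [] 0 0 = true := by
  decide +kernel

lemma h0 : chkL05 n0 n1 n2 n3 wt 0 = true := by
  decide +kernel

lemma h6 : chkLp5 n0 n1 n2 n3 wt 0 6 1 2 128 = true := by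
  decide +kernel

lemma h5 : chkLp5 n0 n1 n2 n3 wt 0 5 1 2 64 = true := by
  decide +kernel

lemma h4 : chkLp5 n0 n1 n2 n3 wt 0 4 1 2 32 = true := by
  decide +kernel

lemma h3 : chkLp5 n0 n1 n2 n3 wt 0 3 1 2 16 = true := by
  decide +kernel

lemma h2 : chkLp5 n0 n1 n2 n3 wt 0 2 1 2 8 = true := by
  decide +kernel

lemma r1 : chkN 1 1 4 4 (addL (rW5 n1 n2 n3 wt 0) (rM n0 n1 n2 n3 [] [] 0)) = true := by
  decide +kernel

lemma r2 : chkN 1 1 4 4 (addL (rW5 n1 n2 n3 wt 0)
      (smulL (-1) (rM n0 n1 n2 n3 [] [] 0))) = true := by
  decide +kernel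

lemma d0 : eqL r.n0 (mulL fac N.n0) = true := by
  decide +kernel

lemma d1 : eqL r.n1 (mulL fac N.n1) = true := by
  decide +kernel

lemma d2 : eqL r.n2 (mulL fac N.n2) = true := by
  decide +kernel

lemma d3 : eqL r.n3 (mulL fac N.n3) = true := by
  decide +kernel

lemma dd : eqL DnL (mulL fac (dnL 588245 0 1 2 1 0)) = true := by
  decide +kernel

theorem eq {T : ℝ} (h0 : 0 < T) (h1 : T < 1) :
    G4 r T / ev DnL T = qf N 588245 0 1 2 1 0 T :=
  G4_div_eq (by norm_num) d0 d1 d2 d3 dd h0 h1

theorem bd {T : ℝ} (hT0 : 0 < T) (hT1 : T < 1) :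
    |(DD : ℝ) * (G4 r T / ev DnL T) - ev B T| ≤ E * (1 - T) ^ 1 := by
  rw [eq hT0 hT1]
  exact qf_bd (by norm_num) e0 e1 e2 e3 e4 (q := 1) (by norm_num) (by norm_num) hv h0
    h6 h5 h4 h3 h2 r1 r2 hT0 hT1

end Vale.Agent.P224.S7.K04
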