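import Vale.Agent.P224.S7.Piv.Dn

/-!
Column function z 0 5 1 2 (m = 7): kernel-checked polynomial approximant on `(0, 1)`.
-/

namespace Vale.Agent.P224.S7.K21

open Vale.Agent.P224.SP Vale.Agent.P224.S7

/-- coefficient lists over `DnL` -/
def r : Q4 := ⟨
  [0, -132862521607200, 448192656233280, -86918309422560, -1210666165914240, 1136746122916320,
  913505999192640, -1584696914851680, 68404654039680, 772033499868960, -278919046969920,
  -105120155820960, 62845047135360, 743266933920, -3433669243200, 76109695200, 71031139200,
  -1097712000, -505612800],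
  [0, 159435025928640, -337398583455360, -377231165388000, 1125703844395200, 116642401686720,
  -1370199313990080, 319835720282400, 725502877545600, -283976418519360, -156596806517760,
  71603377423200, 13357774987200, -6492207960000, -373052836800, 184896482400, 3259872000,
  -1629936000],
  [0, -79717512964320, 214252156278720, 58864783017600, -572629296294720, 260069774297760,
  490634845223040, -390011279978880, -127955762686080, 175579430513760, -8719969930560,
  -25616534670720, 4588789464000, 839223352800, -172465171200, -7883568000, 1703116800],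
  []⟩

/-- reduced coefficient lists -/
def N : Q4 := ⟨
  [0, -87835440, 208464816, 59582544, -432394960, 167770736, 247414224, -169464720, -20939120,
  30749440, -2544960, -802560],
  [0, 105402528, -117651744, -257334672, 254709840, 182091840, -181605760, -39940880, 39940880,
  2587200, -2587200],
  [0, -52701264, 88940880, 73004064, -158137824, -619920, 77322320, -15931840, -9810240,
  2703360],
  []⟩

/-- approximant (times `DD`) -/
def B : List ℤ :=
  [-5897, 791408894609, -2918598385371, 2691848345681, 1923695470682, -5879421785643,
  11648378517537, -27900732043319, 46882055237208, -51730516584168, 40013388648890,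
  -22373370350497, 8736053215860, -2124827677748, 240638502176]

/-- error (times `DD`) -/
def E : ℤ := 6094

/-- test list -/
def n0 : List ℤ :=
  [99110879, -3046040288424984025, 7220221593736237198, 2096799576933329996,
  -15003283990658681991, 5781616300784245194, 8512122260319557341, -5675000454009696544,
  -768841479458929709, 824170604268768617, 190546725873235186, -127256417182225485,
  -67273398459247092, 118087521462795675, -79447300145209780, 27623156167766572,
  -4044411306072032]

/-- test list -/
def n1 : List ℤ :=
  [0, 3639286895197814784, -4062221829597560832, -8885125596699426816, 8794496682185195520,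
  6287177922662891520, -6270394790345441280, -1379059154697584640, 1379059154697584640,
  89329575238041600, -89329575238041600]

/-- test list -/
def n2 : List ℤ :=
  [0, -1819643447598907392, 3070907170569584640, 2520648588346785792, -5460105383035011072,
  -21404294326517760, 2669747217849384960, -550086773330411520, -338723164882206720,
  93340290860974080]

/-- test list -/
def n3 : List ℤ :=
  []

/-- weight list -/
def wt : List ℤ :=
  [102421858, 102421858, -102421858, -102421858]

/-- factor -/
def fac : List ℤ := [1512630, -1512630, -1574370, 1574370, 62370, -62370, -630, 630]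

lemma e0 : eqL n0 (addL (smulL DD N.n0) (smulL (-1) (mulL B (dnL 16807 0 0 2 0 0)))) = true := by
  decide +kernel

lemma e1 : eqL n1 (smulL DD N.n1) = true := by
  decide +kernel

lemma e2 : eqL n2 (smulL DD N.n2) = true := by
  decide +kernel

lemma e3 : eqL n3 (smulL DD N.n3) = true := by
  decide +kernel

lemma e4 : eqL wt (smulL E (mulL (powZ 1) (dnL 16807 0 0 2 0 0))) = true := by
  decide +kernel

lemma hv : vanT n1 n2 n3 [] [] 0 0 = true := by
  decide +kernel

lemma h0 : chkL05 n0 n1 n2 n3 wt 0 = true := by
  decide +kernel

lemma h6 : chkLp5 n0 n1 n2 n3 wt 0 6 1 2 128 = true := by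
  decide +kernel

lemma h5 : chkLp5 n0 n1 n2 n3 wt 0 5 1 2 64 = true := by
  decide +kernel

lemma h4 : chkLp5 n0 n1 n2 n3 wt 0 4 1 2 32 = true := by
  decide +kernel

lemma h3 : chkLp5 n0 n1 n2 n3 wt 0 3 1 2 16 = true := by
  decide +kernel

lemma h2 : chkLp5 n0 n1 n2 n3 wt 0 2 1 2 8 = true := by
  decide +kernel

lemma r1 : chkN 1 1 4 4 (addL (rW5 n1 n2 n3 wt 0) (rM n0 n1 n2 n3 [] [] 0)) = true := by
  decide +kernel

lemma r2 : chkN 1 1 4 4 (addL (rW5 n1 n2 n3 wt 0)
      (smulL (-1) (rM n0 n1 n2 n3 [] [] 0))) = true := by
  decide +kernel

lemma d0 : eqL r.n0 (mulL fac N.n0) = true := by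
  decide +kernel

lemma d1 : eqL r.n1 (mulL fac N.n1) = true := by
  decide +kernel

lemma d2 : eqL r.n2 (mulL fac N.n2) = true := by
  decide +kernel

lemma d3 : eqL r.n3 (mulL fac N.n3) = true := by
  decide +kernel

lemma dd : eqL DnL (mulL fac (dnL 16807 0 0 2 0 0)) = true := by
  decide +kernel

theorem eq {T : ℝ} (h0 : 0 < T) (h1 : T < 1) :
    G4 r T / ev DnL T = qf N 16807 0 0 2 0 0 T :=
  G4_div_eq (by norm_num) d0 d1 d2 d3 dd h0 h1

theorem bd {T : ℝ} (hT0 : 0 < T) (hT1 : T < 1) :
    |(DD : ℝ) * (G4 r T / ev DnL T) - ev B T| ≤ E * (1 - T) ^ 1 := by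
  rw [eq hT0 hT1]
  exact qf_bd (by norm_num) e0 e1 e2 e3 e4 (q := 1) (by norm_num) (by norm_num) hv h0
    h6 h5 h4 h3 h2 r1 r2 hT0 hT1

end Vale.Agent.P224.S7.K21
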