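import Vale.Agent.P224.S7.Piv.Dn

/-!
Column function z 0 5 1 3 (m = 7): kernel-checked polynomial approximant on `(0, 1)`.
-/

namespace Vale.Agent.P224.S7.K22

open Vale.Agent.P224.SP Vale.Agent.P224.S7

/-- coefficient lists over `DnL` -/
def r : Q4 := ⟨
  [0, 0, -138009335940000, 311506786836000, 240323024088000, -974223509716800, 146050234999200,
  1063395260978400, -514961792150400, -447888445401600, 323678255594400, 44808881695200,
  -60299596123200, 2544959793600, 3288131733600, -145537509600, -69427814400, 1603324800,
  505612800],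
  [0, 0, 165611203128000, -165611203128000, -556182070970400, 556182070970400, 681007928882400,
  -681007928882400, -362225028715200, 362225028715200, 78281805571200, -78281805571200,
  -6678734378400, 6678734378400, 186526418400, -186526418400, -1629936000, 1629936000],
  [0, 0, -82805601564000, 130123088172000, 196130389039200, -373869980517600, -118784534702400,
  370493219880000, -18555166728000, -146458777752000, 29087338644000, 20366847496800,
  -5249367194400, -660577730400, 178645622400, 6180451200, -1703116800],
  []⟩

/-- reduced coefficient lists -/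
def N : Q4 := ⟨
  [0, 0, -91238000, 114699200, 178614800, -251101760, -84261520, 163001920, -6462800,
  -27401920, 3347520, 802560],
  [0, 0, 109485600, 0, -253737680, 0, 181605760, 0, -39940880, 0, 2587200],
  [0, 0, -54742800, 31281600, 103966240, -53663680, -54283600, 23038720, 7106880, -2703360],
  []⟩

/-- approximant (times `DD`) -/
def B : List ℤ :=
  [1071, -425953, 822093662510, -2114753578612, 547523683683, 2403057802189, -3073727275564,
  7056993804702, -16524423761634, 21721919448271, -17740670697696, 9880074115636,
  -3776890960462, 898463145689, -99658963830]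

/-- error (times `DD`) -/
def E : ℤ := 1087

/-- test list -/
def n0 : List ℤ :=
  [-18000297, 7122991477, -3164037919439485725, 3968186649736290415, 6215190555510612417,
  -8693168652188308281, -2947659000099319639, 5572375690168005019, -130972060309424642,
  -874355296006565695, -38685625713531524, 92910597853120075, 29536847465673002,
  -54198463006119607, 34952234398385598, -11750533679413403, 1674968205090810]

/-- test list -/
def n1 : List ℤ :=
  [0, 0, 3780265206664396800, 0, -8760930417550295040, 0, 6270394790345441280, 0,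
  -1379059154697584640, 0, 89329575238041600]

/-- test list -/
def n2 : List ℤ :=
  [0, 0, -1890132603332198400, 1080075773332684800, 3589695446156574720, -1852873276171223040,
  -1874277570497740800, 795469647351644160, 245382874021232640, -93340290860974080]

/-- test list -/
def n3 : List ℤ :=
  []

/-- weight list -/
def wt : List ℤ :=
  [18269209, 18269209, -18269209, -18269209]

/-- factor -/
def fac : List ℤ := [1512630, -1512630, -1574370, 1574370, 62370, -62370, -630, 630]

lemma e0 : eqL n0 (addL (smulL DD N.n0) (smulL (-1) (mulL B (dnL 16807 0 0 2 0 0)))) = true := by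
  decide +kernel

lemma e1 : eqL n1 (smulL DD N.n1) = true := by
  decide +kernel

lemma e2 : eqL n2 (smulL DD N.n2) = true := by
  decide +kernel

lemma e3 : eqL n3 (smulL DD N.n3) = true := by
  decide +kernel

lemma e4 : eqL wt (smulL E (mulL (powZ 1) (dnL 16807 0 0 2 0 0))) = true := by
  decide +kernel

lemma hv : vanT n1 n2 n3 [] [] 0 0 = true := by
  decide +kernel

lemma h0 : chkL05 n0 n1 n2 n3 wt 0 = true := by
  decide +kernel

lemma h6 : chkLp5 n0 n1 n2 n3 wt 0 6 1 2 128 = true := by
  decide +kernel

lemma h5 : chkLp5 n0 n1 n2 n3 wt 0 5 1 2 64 = true := by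
  decide +kernel

lemma h4 : chkLp5 n0 n1 n2 n3 wt 0 4 1 2 32 = true := by
  decide +kernel

lemma h3 : chkLp5 n0 n1 n2 n3 wt 0 3 1 2 16 = true := by
  decide +kernel

lemma h2 : chkLp5 n0 n1 n2 n3 wt 0 2 1 2 8 = true := by
  decide +kernel

lemma r1 : chkN 2 1 4 4 (addL (rW5 n1 n2 n3 wt 0) (rM n0 n1 n2 n3 [] [] 0)) = true := by
  decide +kernel

lemma r2 : chkN 2 1 4 4 (addL (rW5 n1 n2 n3 wt 0)
      (smulL (-1) (rM n0 n1 n2 n3 [] [] 0))) = true := by
  decide +kernel

lemma d0 : eqL r.n0 (mulL fac N.n0) = true := by
  decide +kernel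

lemma d1 : eqL r.n1 (mulL fac N.n1) = true := by
  decide +kernel

lemma d2 : eqL r.n2 (mulL fac N.n2) = true := by
  decide +kernel

lemma d3 : eqL r.n3 (mulL fac N.n3) = true := by
  decide +kernel

lemma dd : eqL DnL (mulL fac (dnL 16807 0 0 2 0 0)) = true := by
  decide +kernel

theorem eq {T : ℝ} (h0 : 0 < T) (h1 : T < 1) :
    G4 r T / ev DnL T = qf N 16807 0 0 2 0 0 T :=
  G4_div_eq (by norm_num) d0 d1 d2 d3 dd h0 h1

theorem bd {T : ℝ} (hT0 : 0 < T) (hT1 : T < 1) :
    |(DD : ℝ) * (G4 r T / ev DnL T) - ev B T| ≤ E * (1 - T) ^ 1 := by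
  rw [eq hT0 hT1]
  exact qf_bd (by norm_num) e0 e1 e2 e3 e4 (q := 2) (by norm_num) (by norm_num) hv h0
    h6 h5 h4 h3 h2 r1 r2 hT0 hT1

end Vale.Agent.P224.S7.K22
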