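import Vale.Agent.P224.S7.Piv.Dn

/-!
Column function z 0 5 1 4 (m = 7): kernel-checked polynomial approximant on `(0, 1)`.
-/

namespace Vale.Agent.P224.S7.K23

open Vale.Agent.P224.SP Vale.Agent.P224.S7

/-- coefficient lists over `DnL` -/
def r : Q4 := ⟨
  [0, 0, 0, -69004667970000, 86748725448000, 206910237492000, -280201517366400,
  -207176399866800, 324521230622400, 67040334547200, -156903888153600, 4935239643600,
  27339680491200, -2810117570400, -1537637673600, 106428193200, 33659438400, -1054468800,
  -252806400],
  [0, 0, 0, 82805601564000, 0, -278091035485200, 0, 340503964441200, 0, -181112514357600, 0,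
  39140902785600, 0, -3339367189200, 0, 93263209200, 0, -814968000],
  [0, 0, 0, -41402800782000, 23658743304000, 121723937823600, -65211052435200,
  -124603319786400, 60643290153600, 51365706789600, -21863682086400, -7320012764400,
  2863410984000, 238727386800, -91561478400, -2238667200, 851558400],
  []⟩

/-- reduced coefficient lists -/
def N : Q4 := ⟨
  [0, 0, 0, -45619000, 11730600, 101038000, -24512880, -66643640, 14857320, 11625920, -2075040,
  -401280],
  [0, 0, 0, 54742800, 54742800, -72126040, -72126040, 18676840, 18676840, -1293600, -1293600],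
  [0, 0, 0, -27371400, -11730600, 40252520, 13420680, -13721120, -2201760, 1351680],
  []⟩

/-- approximant (times `DD`) -/
def B : List ℤ :=
  [-183, 72465, -4887866, 411166309684, -647928898539, -359778504273, 762686027943,
  -474849722037, 2249613145926, -4456396459183, 4226705025264, -2459711253915, 950302946583,
  -227005149260, 25201347391]

/-- error (times `DD`) -/
def E : ℤ := 186

/-- test list -/
def n0 : List ℤ :=
  [3075681, -1211767893, 79717601033, -1582020811860882519, 402097293814147659,
  3509506415878011269, -836203850702861046, -2312648313267925752, 478320159059200395,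
  408675033478293736, -30696134370234088, -39692639809861850, -4329238893733719,
  13212159341721263, -8764749581595378, 2968157452411746, -423559045600537]

/-- test list -/
def n1 : List ℤ :=
  [0, 0, 0, 1890132603332198400, 1890132603332198400, -2490332605442949120,
  -2490332605442949120, 644864789729771520, 644864789729771520, -44664787619020800,
  -44664787619020800]

/-- test list -/
def n2 : List ℤ :=
  [0, 0, 0, -945066301666099200, -405028414999756800, 1389819308078530560, 463382669992919040,
  -473756115255951360, -76021291580129280, 46670145430487040]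

/-- test list -/
def n3 : List ℤ :=
  []

/-- weight list -/
def wt : List ℤ :=
  [3126102, 3126102, -3126102, -3126102]

/-- factor -/
def fac : List ℤ := [1512630, -1512630, -1574370, 1574370, 62370, -62370, -630, 630]

lemma e0 : eqL n0 (addL (smulL DD N.n0) (smulL (-1) (mulL B (dnL 16807 0 0 2 0 0)))) = true := by
  decide +kernel

lemma e1 : eqL n1 (smulL DD N.n1) = true := by
  decide +kernel

lemma e2 : eqL n2 (smulL DD N.n2) = true := by
  decide +kernel

lemma e3 : eqL n3 (smulL DD N.n3) = true := by
  decide +kernel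

lemma e4 : eqL wt (smulL E (mulL (powZ 1) (dnL 16807 0 0 2 0 0))) = true := by
  decide +kernel

lemma hv : vanT n1 n2 n3 [] [] 0 0 = true := by
  decide +kernel

lemma h0 : chkL05 n0 n1 n2 n3 wt 0 = true := by
  decide +kernel

lemma h6 : chkLp5 n0 n1 n2 n3 wt 0 6 1 2 128 = true := by
  decide +kernel

lemma h5 : chkLp5 n0 n1 n2 n3 wt 0 5 1 2 64 = true := by
  decide +kernel

lemma h4 : chkLp5 n0 n1 n2 n3 wt 0 4 1 2 32 = true := by
  decide +kernel

lemma h3 : chkLp5 n0 n1 n2 n3 wt 0 3 1 2 16 = true := by
  decide +kernel

lemma h2 : chkLp5 n0 n1 n2 n3 wt 0 2 1 2 8 = true := by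
  decide +kernel

lemma r1 : chkN 2 1 4 4 (addL (rW5 n1 n2 n3 wt 0) (rM n0 n1 n2 n3 [] [] 0)) = true := by
  decide +kernel

lemma r2 : chkN 2 1 4 4 (addL (rW5 n1 n2 n3 wt 0)
      (smulL (-1) (rM n0 n1 n2 n3 [] [] 0))) = true := by
  decide +kernel

lemma d0 : eqL r.n0 (mulL fac N.n0) = true := by
  decide +kernel

lemma d1 : eqL r.n1 (mulL fac N.n1) = true := by
  decide +kernel

lemma d2 : eqL r.n2 (mulL fac N.n2) = true := by
  decide +kernel

lemma d3 : eqL r.n3 (mulL fac N.n3) = true := by
  decide +kernel

lemma dd : eqL DnL (mulL fac (dnL 16807 0 0 2 0 0)) = true := by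
  decide +kernel

theorem eq {T : ℝ} (h0 : 0 < T) (h1 : T < 1) :
    G4 r T / ev DnL T = qf N 16807 0 0 2 0 0 T :=
  G4_div_eq (by norm_num) d0 d1 d2 d3 dd h0 h1

theorem bd {T : ℝ} (hT0 : 0 < T) (hT1 : T < 1) :
    |(DD : ℝ) * (G4 r T / ev DnL T) - ev B T| ≤ E * (1 - T) ^ 1 := by
  rw [eq hT0 hT1]
  exact qf_bd (by norm_num) e0 e1 e2 e3 e4 (q := 2) (by norm_num) (by norm_num) hv h0
    h6 h5 h4 h3 h2 r1 r2 hT0 hT1

end Vale.Agent.P224.S7.K23
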