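import Vale.Agent.P224.S7.Piv.Dn

/-!
Column function z 0 5 1 5 (m = 7): kernel-checked polynomial approximant on `(0, 1)`.
-/

namespace Vale.Agent.P224.S7.K24

open Vale.Agent.P224.SP Vale.Agent.P224.S7

/-- coefficient lists over `DnL` -/
def r : Q4 := ⟨
  [0, 0, 0, 0, -13800933594000, 3548811495600, 44930858994000, -11109444479280,
  -52544724452640, 12359521671840, 25767588581280, -5613189049440, -4626141120720,
  841794977520, 279771463440, -27756071280, -6470432640, 261455040, 50561280],
  [0, 0, 0, 0, 16561120312800, 16561120312800, -39057086784240, -39057086784240,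
  29043706104000, 29043706104000, -7178796767520, -7178796767520, 649383789600, 649383789600,
  -18489648240, -18489648240, 162993600, 162993600],
  [0, 0, 0, 0, -8280560156400, -3548811495600, 20795976069120, 7753765582080, -17166898375200,
  -5038240344480, 5234901013440, 862164596160, -601837956720, -29155759920, 18589717440,
  277421760, -170311680],
  []⟩

/-- reduced coefficient lists -/
def N : Q4 := ⟨
  [0, 0, 0, 0, -9123800, -6777680, 13429920, 8527344, -4801384, -1829920, 495264, 80256],
  [0, 0, 0, 0, 10948560, 21897120, 7471912, -6953296, -3217928, 517440, 258720],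
  [0, 0, 0, 0, -5474280, -7820400, 230104, 2914240, 170016, -270336],
  []⟩

/-- approximant (times `DD`) -/
def B : List ℤ :=
  [18, -7099, 473495, -12714496, 82389263665, -48609199643, -112802275466, 10346595181,
  -5682420331, 291450590579, -386004229789, 244917244968, -96805711078, 23434642657,
  -2622252661]

/-- error (times `DD`) -/
def E : ℤ := 19

/-- test list -/
def n0 : List ℤ :=
  [-302526, 118707841, -7719707205, 197895786235, -316406397482745976, -235968661753316177,
  465846805316336969, 298862775016584590, -164136254777124707, -68063878489459846,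
  13886490350983726, 6731451853024185, -118061596202683, -1256163003137483, 883353708288975,
  -305721638189345, 44072200473427]

/-- test list -/
def n1 : List ℤ :=
  [0, 0, 0, 0, 378026520666439680, 756053041332879360, 257986520244289536, -240080000844300288,
  -111107042898345984, 17865915047608320, 8932957523804160]

/-- test list -/
def n2 : List ℤ :=
  [0, 0, 0, 0, -189013260333219840, -270018943333171200, 7944918282534912, 100621452281118720,
  5870229229928448, -9334029086097408]

/-- test list -/
def n3 : List ℤ :=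
  []

/-- weight list -/
def wt : List ℤ :=
  [319333, 319333, -319333, -319333]

/-- factor -/
def fac : List ℤ := [1512630, -1512630, -1574370, 1574370, 62370, -62370, -630, 630]

lemma e0 : eqL n0 (addL (smulL DD N.n0) (smulL (-1) (mulL B (dnL 16807 0 0 2 0 0)))) = true := by
  decide +kernel

lemma e1 : eqL n1 (smulL DD N.n1) = true := by
  decide +kernel

lemma e2 : eqL n2 (smulL DD N.n2) = true := by
  decide +kernel

lemma e3 : eqL n3 (smulL DD N.n3) = true := by
  decide +kernel

lemma e4 : eqL wt (smulL E (mulL (powZ 1) (dnL 16807 0 0 2 0 0))) = true := by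
  decide +kernel

lemma hv : vanT n1 n2 n3 [] [] 0 0 = true := by
  decide +kernel

lemma h0 : chkL05 n0 n1 n2 n3 wt 0 = true := by
  decide +kernel

lemma h6 : chkLp5 n0 n1 n2 n3 wt 0 6 1 2 128 = true := by
  decide +kernel

lemma h5 : chkLp5 n0 n1 n2 n3 wt 0 5 1 2 64 = true := by
  decide +kernel

lemma h4 : chkLp5 n0 n1 n2 n3 wt 0 4 1 2 32 = true := by
  decide +kernel

lemma h3 : chkLp5 n0 n1 n2 n3 wt 0 3 1 2 16 = true := by
  decide +kernel

lemma h2 : chkLp5 n0 n1 n2 n3 wt 0 2 1 2 8 = true := by
  decide +kernel

lemma r1 : chkN 3 1 4 4 (addL (rW5 n1 n2 n3 wt 0) (rM n0 n1 n2 n3 [] [] 0)) = true := by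
  decide +kernel

lemma r2 : chkN 3 1 4 4 (addL (rW5 n1 n2 n3 wt 0)
      (smulL (-1) (rM n0 n1 n2 n3 [] [] 0))) = true := by
  decide +kernel

lemma d0 : eqL r.n0 (mulL fac N.n0) = true := by
  decide +kernel

lemma d1 : eqL r.n1 (mulL fac N.n1) = true := by
  decide +kernel

lemma d2 : eqL r.n2 (mulL fac N.n2) = true := by
  decide +kernel

lemma d3 : eqL r.n3 (mulL fac N.n3) = true := by
  decide +kernel

lemma dd : eqL DnL (mulL fac (dnL 16807 0 0 2 0 0)) = true := by
  decide +kernel

theorem eq {T : ℝ} (h0 : 0 < T) (h1 : T < 1) :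
    G4 r T / ev DnL T = qf N 16807 0 0 2 0 0 T :=
  G4_div_eq (by norm_num) d0 d1 d2 d3 dd h0 h1

theorem bd {T : ℝ} (hT0 : 0 < T) (hT1 : T < 1) :
    |(DD : ℝ) * (G4 r T / ev DnL T) - ev B T| ≤ E * (1 - T) ^ 1 := by
  rw [eq hT0 hT1]
  exact qf_bd (by norm_num) e0 e1 e2 e3 e4 (q := 3) (by norm_num) (by norm_num) hv h0
    h6 h5 h4 h3 h2 r1 r2 hT0 hT1

end Vale.Agent.P224.S7.K24
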