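import Vale.Agent.P224.S7.Piv.Dn

/-!
Column function z 0 6 3 0 (m = 7): kernel-checked polynomial approximant on `(0, 1)`.
-/

namespace Vale.Agent.P224.S7.K28

open Vale.Agent.P224.SP Vale.Agent.P224.S7

/-- coefficient lists over `DnL` -/
def r : Q4 := ⟨
  [0, 161377533273600, -113220428106240, -474911026490880, 340936830743040, 462413957483520,
  -349922626421760, -145286645898240, 130091966161920, -3916007907840, -8062559285760,
  326056389120, 178140695040, -3866849280, -1323786240],
  [0, -193653039928320, -107585022182400, 504332236638720, 232369010496000, -442486158428160,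
  -142550527795200, 147051427138560, 18339447168000, -15712393374720, -578242022400,
  472195422720, 5334336000, -4267468800],
  [0, 96826519964160, -1536928888320, -242395641815040, 17104868444160, 192918181800960,
  -26907671024640, -49103081072640, 11783178086400, 1771317434880, -447905687040, -17296312320,
  4459069440],
  []⟩

/-- reduced coefficient lists -/
def N : Q4 := ⟨
  [0, 106686720, 31836672, -171085824, -23597568, 66500352, -8239104, -2101248],
  [0, -128024064, -199148544, 1016064, 80607744, 1693440, -6773760],
  [0, 64012032, 62995968, -30627072, -20376576, 7077888],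
  []⟩

/-- approximant (times `DD`) -/
def B : List ℤ :=
  [8435, -961261484157, 976711399078, 996308078448, -1034301630434, 1969604760783,
  -7567356414832, 13466142279840, -15893372339578, 14551850188781, -10496803511570,
  5715296184534, -2182606914848, 516424757093, -56635361573]

/-- error (times `DD`) -/
def E : ℤ := 8721

/-- test list -/
def n0 : List ℤ :=
  [-141767045, 3699782769478480769, 1115137282558865223, -5940587794430411801,
  -847287258285746684, 2281010521712158915, -206113977763461012, -77610344425526857,
  -58346438419172890, 63341418402461745, -45606206715440098, 12209624141608775,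
  20988885089881450, -31370385030224317, 20275843154883645, -6775809848547229, 951870521957411]

/-- test list -/
def n1 : List ℤ :=
  [0, -4420352217597345792, -6876103449595871232, 35082160457121792, 2783184729598328832,
  58470267428536320, -233881069714145280]

/-- test list -/
def n2 : List ℤ :=
  [0, 2210176108798672896, 2175093948341551104, -1057476550921814016, -703552442364592128,
  244381852436004864]

/-- test list -/
def n3 : List ℤ :=
  []

/-- weight list -/
def wt : List ℤ :=
  [146573847, 0, -293147694, 0, 146573847]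

/-- factor -/
def fac : List ℤ := [1512630, -1512630, -1574370, 1574370, 62370, -62370, -630, 630]

lemma e0 : eqL n0 (addL (smulL DD N.n0) (smulL (-1) (mulL B (dnL 16807 0 0 2 0 0)))) = true := by
  decide +kernel

lemma e1 : eqL n1 (smulL DD N.n1) = true := by
  decide +kernel

lemma e2 : eqL n2 (smulL DD N.n2) = true := by
  decide +kernel

lemma e3 : eqL n3 (smulL DD N.n3) = true := by
  decide +kernel

lemma e4 : eqL wt (smulL E (mulL (powZ 2) (dnL 16807 0 0 2 0 0))) = true := by
  decide +kernel

lemma hv : vanT n1 n2 n3 [] [] 0 0 = true := by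
  decide +kernel

lemma h0 : chkL05 n0 n1 n2 n3 wt 0 = true := by
  decide +kernel

lemma h6 : chkLp5 n0 n1 n2 n3 wt 0 6 1 2 128 = true := by
  decide +kernel

lemma h5 : chkLp5 n0 n1 n2 n3 wt 0 5 1 2 64 = true := by
  decide +kernel

lemma h4 : chkLp5 n0 n1 n2 n3 wt 0 4 1 2 32 = true := by
  decide +kernel

lemma h3 : chkLp5 n0 n1 n2 n3 wt 0 3 1 2 16 = true := by
  decide +kernel

lemma h2 : chkLp5 n0 n1 n2 n3 wt 0 2 1 2 8 = true := by
  decide +kernel

lemma r1 : chkN 1 1 4 4 (addL (rW5 n1 n2 n3 wt 0) (rM n0 n1 n2 n3 [] [] 0)) = true := by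
  decide +kernel

lemma r2 : chkN 1 1 4 4 (addL (rW5 n1 n2 n3 wt 0)
      (smulL (-1) (rM n0 n1 n2 n3 [] [] 0))) = true := by
  decide +kernel

lemma d0 : eqL r.n0 (mulL fac N.n0) = true := by
  decide +kernel

lemma d1 : eqL r.n1 (mulL fac N.n1) = true := by
  decide +kernel

lemma d2 : eqL r.n2 (mulL fac N.n2) = true := by
  decide +kernel

lemma d3 : eqL r.n3 (mulL fac N.n3) = true := by
  decide +kernel

lemma dd : eqL DnL (mulL fac (dnL 16807 0 0 2 0 0)) = true := by
  decide +kernel

theorem eq {T : ℝ} (h0 : 0 < T) (h1 : T < 1) :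
    G4 r T / ev DnL T = qf N 16807 0 0 2 0 0 T :=
  G4_div_eq (by norm_num) d0 d1 d2 d3 dd h0 h1

theorem bd {T : ℝ} (hT0 : 0 < T) (hT1 : T < 1) :
    |(DD : ℝ) * (G4 r T / ev DnL T) - ev B T| ≤ E * (1 - T) ^ 2 := by
  rw [eq hT0 hT1]
  exact qf_bd (by norm_num) e0 e1 e2 e3 e4 (q := 1) (by norm_num) (by norm_num) hv h0
    h6 h5 h4 h3 h2 r1 r2 hT0 hT1

end Vale.Agent.P224.S7.K28
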