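import Vale.Agent.P224.S7.Piv.Dn

/-!
Column function z 0 6 3 1 (m = 7): kernel-checked polynomial approximant on `(0, 1)`.
-/

namespace Vale.Agent.P224.S7.K29

open Vale.Agent.P224.SP Vale.Agent.P224.S7

/-- coefficient lists over `DnL` -/
def r : Q4 := ⟨
  [0, 0, 71723348121600, -18443146659840, -219268521400320, 54074804152320, 229550560727040,
  -53498695864320, -88349040783360, 18552411279360, 6505068165120, -692218275840,
  -162738616320, 6845368320, 1323786240],
  [0, 0, -86068017745920, -86068017745920, 185895208396800, 185895208396800, -114040422236160,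
  -114040422236160, 14671557734400, 14671557734400, -462593617920, -462593617920, 4267468800,
  4267468800],
  [0, 0, 43034008872960, 18443146659840, -99534442291200, -36635366154240, 69459029176320,
  18911714734080, -13418385039360, -726758645760, 464248350720, 7263406080, -4459069440],
  []⟩

/-- reduced coefficient lists -/
def N : Q4 := ⟨
  [0, 0, 47416320, 35223552, -60383232, -37324800, 12966912, 2101248],
  [0, 0, -56899584, -113799168, -50125824, 13547520, 6773760],
  [0, 0, 28449792, 40642560, 4451328, -7077888],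
  []⟩

/-- approximant (times `DD`) -/
def B : List ℤ :=
  [-290, 116059, -427234321456, 244385775123, 549167850854, -197931976825, 696129418741,
  -2728481265065, 3947095600116, -3797438719611, 2771072105340, -1516555057348, 584573277104,
  -140540191407, 15757388665]

/-- error (times `DD`) -/
def E : ℤ := 294

/-- test list -/
def n0 : List ℤ :=
  [4874030, -1940855553, 1644348011343394756, 1226435223321881566, -2095146798868243204,
  -1307972902082095242, 433438764854561921, 98335395516824200, 13676486351965311,
  -22996534319849692, 14734860495405162, -3834524339548847, -5420850245040636,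
  8200953709251429, -5365639505624685, 1832390134392139, -264834431292655]

/-- test list -/
def n1 : List ℤ :=
  [0, 0, -1964600985598820352, -3929201971197640704, -1730719915884675072, 467762139428290560,
  233881069714145280]

/-- test list -/
def n2 : List ℤ :=
  [0, 0, 982300492799410176, 1403286418284871680, 153693274383581184, -244381852436004864]

/-- test list -/
def n3 : List ℤ :=
  []

/-- weight list -/
def wt : List ℤ :=
  [4941258, 4941258, -4941258, -4941258]

/-- factor -/
def fac : List ℤ := [1512630, -1512630, -1574370, 1574370, 62370, -62370, -630, 630]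

lemma e0 : eqL n0 (addL (smulL DD N.n0) (smulL (-1) (mulL B (dnL 16807 0 0 2 0 0)))) = true := by
  decide +kernel

lemma e1 : eqL n1 (smulL DD N.n1) = true := by
  decide +kernel

lemma e2 : eqL n2 (smulL DD N.n2) = true := by
  decide +kernel

lemma e3 : eqL n3 (smulL DD N.n3) = true := by
  decide +kernel

lemma e4 : eqL wt (smulL E (mulL (powZ 1) (dnL 16807 0 0 2 0 0))) = true := by
  decide +kernel

lemma hv : vanT n1 n2 n3 [] [] 0 0 = true := by
  decide +kernel

lemma h0 : chkL05 n0 n1 n2 n3 wt 0 = true := by
  decide +kernel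

lemma h6 : chkLp5 n0 n1 n2 n3 wt 0 6 1 2 128 = true := by
  decide +kernel

lemma h5 : chkLp5 n0 n1 n2 n3 wt 0 5 1 2 64 = true := by
  decide +kernel

lemma h4 : chkLp5 n0 n1 n2 n3 wt 0 4 1 2 32 = true := by
  decide +kernel

lemma h3 : chkLp5 n0 n1 n2 n3 wt 0 3 1 2 16 = true := by
  decide +kernel

lemma h2 : chkLp5 n0 n1 n2 n3 wt 0 2 1 2 8 = true := by
  decide +kernel

lemma r1 : chkN 2 1 4 4 (addL (rW5 n1 n2 n3 wt 0) (rM n0 n1 n2 n3 [] [] 0)) = true := by
  decide +kernel

lemma r2 : chkN 2 1 4 4 (addL (rW5 n1 n2 n3 wt 0)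
      (smulL (-1) (rM n0 n1 n2 n3 [] [] 0))) = true := by
  decide +kernel

lemma d0 : eqL r.n0 (mulL fac N.n0) = true := by
  decide +kernel

lemma d1 : eqL r.n1 (mulL fac N.n1) = true := by
  decide +kernel

lemma d2 : eqL r.n2 (mulL fac N.n2) = true := by
  decide +kernel

lemma d3 : eqL r.n3 (mulL fac N.n3) = true := by
  decide +kernel

lemma dd : eqL DnL (mulL fac (dnL 16807 0 0 2 0 0)) = true := by
  decide +kernel

theorem eq {T : ℝ} (h0 : 0 < T) (h1 : T < 1) :
    G4 r T / ev DnL T = qf N 16807 0 0 2 0 0 T :=
  G4_div_eq (by norm_num) d0 d1 d2 d3 dd h0 h1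

theorem bd {T : ℝ} (hT0 : 0 < T) (hT1 : T < 1) :
    |(DD : ℝ) * (G4 r T / ev DnL T) - ev B T| ≤ E * (1 - T) ^ 1 := by
  rw [eq hT0 hT1]
  exact qf_bd (by norm_num) e0 e1 e2 e3 e4 (q := 2) (by norm_num) (by norm_num) hv h0
    h6 h5 h4 h3 h2 r1 r2 hT0 hT1

end Vale.Agent.P224.S7.K29
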