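import Vale.Agent.P224.S7.Piv.Dn

/-!
Column function z 1 6 2 0 (m = 7): kernel-checked polynomial approximant on `(0, 1)`.
-/

namespace Vale.Agent.P224.S7.K34

open Vale.Agent.P224.SP Vale.Agent.P224.S7

/-- coefficient lists over `DnL` -/
def r : Q4 := ⟨
  [-5976945676800, -2945780369280, 29884728384000, 6508423353600, -54485548024320,
  -2002776451200, 44182211996160, -3826112371200, -14585849832960, 2356678074240,
  1005480967680, -91347782400, -24270865920, 915546240, 193052160],
  [7172334812160, 12551585921280, -22663602178560, -39661303812480, 24994635886080,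
  43740612800640, -10725998330880, -18770497079040, 1261179279360, 2207063738880, -38905090560,
  -68083908480, 355622400, 622339200],
  [-3586167406080, -4226554442880, 13417633152000, 11963475377280, -18013981547520,
  -11259823115520, 10065658337280, 3657170684160, -1950112765440, -135606441600, 67620510720,
  1337938560, -650280960],
  []⟩

/-- reduced coefficient lists -/
def N : Q4 := ⟨
  [-3951360, -5898816, 9745344, 12021120, -7553664, -6428736, 1759680, 306432],
  [4741632, 13039488, 2991744, -14591808, -8721216, 1552320, 987840],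
  [-2370816, -5164992, 1237824, 6238656, 1091520, -1032192],
  []⟩

/-- approximant (times `DD`) -/
def B : List ℤ :=
  [35602172158, 6356226426, -123640708750, 20556854374, 17814250678, 224619748294,
  -265015879186, 125318083476, -144706048811, 255654083648, -282679142779, 197321977167,
  -86952074700, 22302624507, -2552166502]

/-- error (times `DD`) -/
def E : ℤ := 4948

/-- test list -/
def n0 : List ℤ :=
  [-137028989707377586, -204974992055195642, 337748473048399812, 418763077993268260,
  -259721586107086124, -226687741305063976, 57361719277090480, 13607172730515910,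
  2673754385883315, -1538850088120114, -1410493452690742, 1888808051255601, -420389068321985,
  -768423641369118, 754617361703716, -289051685290921, 42894262399114]

/-- test list -/
def n1 : List ℤ :=
  [163716748799901696, 450221059199729664, 103297472457080832, -503818804342554624,
  -301121877256962048, 53597745142824960, 34107655999979520]

/-- test list -/
def n2 : List ℤ :=
  [-81858374399950848, -178334315657035776, 42738981191811072, 215405260720570368,
  37687468291522560, -35639020146917376]

/-- test list -/
def n3 : List ℤ :=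
  []

/-- weight list -/
def wt : List ℤ :=
  [83161036, -83161036, -166322072, 166322072, 83161036, -83161036]

/-- factor -/
def fac : List ℤ := [1512630, -1512630, -1574370, 1574370, 62370, -62370, -630, 630]

lemma e0 : eqL n0 (addL (smulL DD N.n0) (smulL (-1) (mulL B (dnL 16807 0 0 2 0 0)))) = true := by
  decide +kernel

lemma e1 : eqL n1 (smulL DD N.n1) = true := by
  decide +kernel

lemma e2 : eqL n2 (smulL DD N.n2) = true := by
  decide +kernel

lemma e3 : eqL n3 (smulL DD N.n3) = true := by
  decide +kernel

lemma e4 : eqL wt (smulL E (mulL (powZ 3) (dnL 16807 0 0 2 0 0))) = true := by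
  decide +kernel

lemma hv : vanT n1 n2 n3 [] [] 0 0 = true := by
  decide +kernel

lemma h0 : chkL05 n0 n1 n2 n3 wt 0 = true := by
  decide +kernel

lemma h6 : chkLp5 n0 n1 n2 n3 wt 0 6 1 2 128 = true := by
  decide +kernel

lemma h5 : chkLp5 n0 n1 n2 n3 wt 0 5 1 2 64 = true := by
  decide +kernel

lemma h4 : chkLp5 n0 n1 n2 n3 wt 0 4 1 2 32 = true := by
  decide +kernel

lemma h3 : chkLp5 n0 n1 n2 n3 wt 0 3 1 2 16 = true := by
  decide +kernel

lemma h2 : chkLp5 n0 n1 n2 n3 wt 0 2 1 2 8 = true := by
  decide +kernel

lemma r1 : chkN 1 1 4 4 (addL (rW5 n1 n2 n3 wt 0) (rM n0 n1 n2 n3 [] [] 0)) = true := by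
  decide +kernel

lemma r2 : chkN 1 1 4 4 (addL (rW5 n1 n2 n3 wt 0)
      (smulL (-1) (rM n0 n1 n2 n3 [] [] 0))) = true := by
  decide +kernel

lemma d0 : eqL r.n0 (mulL fac N.n0) = true := by
  decide +kernel

lemma d1 : eqL r.n1 (mulL fac N.n1) = true := by
  decide +kernel

lemma d2 : eqL r.n2 (mulL fac N.n2) = true := by
  decide +kernel

lemma d3 : eqL r.n3 (mulL fac N.n3) = true := by
  decide +kernel

lemma dd : eqL DnL (mulL fac (dnL 16807 0 0 2 0 0)) = true := by
  decide +kernel

theorem eq {T : ℝ} (h0 : 0 < T) (h1 : T < 1) :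
    G4 r T / ev DnL T = qf N 16807 0 0 2 0 0 T :=
  G4_div_eq (by norm_num) d0 d1 d2 d3 dd h0 h1

theorem bd {T : ℝ} (hT0 : 0 < T) (hT1 : T < 1) :
    |(DD : ℝ) * (G4 r T / ev DnL T) - ev B T| ≤ E * (1 - T) ^ 3 := by
  rw [eq hT0 hT1]
  exact qf_bd (by norm_num) e0 e1 e2 e3 e4 (q := 1) (by norm_num) (by norm_num) hv h0
    h6 h5 h4 h3 h2 r1 r2 hT0 hT1

end Vale.Agent.P224.S7.K34
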