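import Vale.Agent.P224.S7.Piv.Dn

/-!
Column function z 1 6 2 1 (m = 7): kernel-checked polynomial approximant on `(0, 1)`.
-/

namespace Vale.Agent.P224.S7.K35

open Vale.Agent.P224.SP Vale.Agent.P224.S7

/-- coefficient lists over `DnL` -/
def r : Q4 := ⟨
  [0, 4482709257600, -7129642343040, -12167353699200, 21652052042880, 9840676366080,
  -22472881885440, -1063590393600, 8521945770240, -1139467512960, -585352656000, 47513692800,
  13989386880, -487710720, -110315520],
  [0, -5379251109120, 1793083703040, 18790785336960, -3872816841600, -22618793756160,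
  2375842129920, 10420340878080, -305657452800, -1251541912320, 9637367040, 38816184960,
  -88905600, -355622400],
  [0, 2689625554560, -2433470739840, -7757831531520, 6004826472960, 7394136503040,
  -4606270260480, -2414625292800, 1072776337920, 89578742400, -38233399680, -883975680,
  371589120],
  []⟩

/-- reduced coefficient lists -/
def N : Q4 := ⟨
  [0, 2963520, -1749888, -6709248, 2699136, 3920832, -949248, -175104],
  [0, -3556224, -2370816, 6350400, 5023872, -705600, -564480],
  [0, 1778112, 169344, -3108672, -813312, 589824],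
  []⟩

/-- approximant (times `DD`) -/
def B : List ℤ :=
  [268, -26701719542, 50866379044, 14092690227, -59178433619, 65292077909, -247034853348,
  520024271167, -648716545852, 596823958399, -425740599814, 228272753832, -85881452691,
  20057299152, -2175825132]

/-- error (times `DD`) -/
def E : ℤ := 273

/-- test list -/
def n0 : List ℤ :=
  [-4504276, 102771743791272402, -60376635979232860, -233151533464450755, 92860435668455455,
  136031572228126610, -29823371506461701, -7579487521975572, -2425202084653138,
  3035089777953366, -2003239290415524, 443444079681379, 925671489142687, -1286864049746814,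
  805772614675833, -263964840860616, 36569092993524]

/-- test list -/
def n1 : List ℤ :=
  [0, -122787561599926272, -81858374399950848, 219263502857011200, 173461793371324416,
  -24362611428556800, -19490089142845440]

/-- test list -/
def n2 : List ℤ :=
  [0, 61393780799963136, 5847026742853632, -107334705208098816, -28081638642548736,
  20365154369667072]

/-- test list -/
def n3 : List ℤ :=
  []

/-- weight list -/
def wt : List ℤ :=
  [4588311, 0, -9176622, 0, 4588311]

/-- factor -/
def fac : List ℤ := [1512630, -1512630, -1574370, 1574370, 62370, -62370, -630, 630]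

lemma e0 : eqL n0 (addL (smulL DD N.n0) (smulL (-1) (mulL B (dnL 16807 0 0 2 0 0)))) = true := by
  decide +kernel

lemma e1 : eqL n1 (smulL DD N.n1) = true := by
  decide +kernel

lemma e2 : eqL n2 (smulL DD N.n2) = true := by
  decide +kernel

lemma e3 : eqL n3 (smulL DD N.n3) = true := by
  decide +kernel

lemma e4 : eqL wt (smulL E (mulL (powZ 2) (dnL 16807 0 0 2 0 0))) = true := by
  decide +kernel

lemma hv : vanT n1 n2 n3 [] [] 0 0 = true := by
  decide +kernel

lemma h0 : chkL05 n0 n1 n2 n3 wt 0 = true := by
  decide +kernel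

lemma h6 : chkLp5 n0 n1 n2 n3 wt 0 6 1 2 128 = true := by
  decide +kernel

lemma h5 : chkLp5 n0 n1 n2 n3 wt 0 5 1 2 64 = true := by
  decide +kernel

lemma h4 : chkLp5 n0 n1 n2 n3 wt 0 4 1 2 32 = true := by
  decide +kernel

lemma h3 : chkLp5 n0 n1 n2 n3 wt 0 3 1 2 16 = true := by
  decide +kernel

lemma h2 : chkLp5 n0 n1 n2 n3 wt 0 2 1 2 8 = true := by
  decide +kernel

lemma r1 : chkN 1 1 4 4 (addL (rW5 n1 n2 n3 wt 0) (rM n0 n1 n2 n3 [] [] 0)) = true := by
  decide +kernel

lemma r2 : chkN 1 1 4 4 (addL (rW5 n1 n2 n3 wt 0)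
      (smulL (-1) (rM n0 n1 n2 n3 [] [] 0))) = true := by
  decide +kernel

lemma d0 : eqL r.n0 (mulL fac N.n0) = true := by
  decide +kernel

lemma d1 : eqL r.n1 (mulL fac N.n1) = true := by
  decide +kernel

lemma d2 : eqL r.n2 (mulL fac N.n2) = true := by
  decide +kernel

lemma d3 : eqL r.n3 (mulL fac N.n3) = true := by
  decide +kernel

lemma dd : eqL DnL (mulL fac (dnL 16807 0 0 2 0 0)) = true := by
  decide +kernel

theorem eq {T : ℝ} (h0 : 0 < T) (h1 : T < 1) :
    G4 r T / ev DnL T = qf N 16807 0 0 2 0 0 T :=
  G4_div_eq (by norm_num) d0 d1 d2 d3 dd h0 h1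

theorem bd {T : ℝ} (hT0 : 0 < T) (hT1 : T < 1) :
    |(DD : ℝ) * (G4 r T / ev DnL T) - ev B T| ≤ E * (1 - T) ^ 2 := by
  rw [eq hT0 hT1]
  exact qf_bd (by norm_num) e0 e1 e2 e3 e4 (q := 1) (by norm_num) (by norm_num) hv h0
    h6 h5 h4 h3 h2 r1 r2 hT0 hT1

end Vale.Agent.P224.S7.K35
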