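import Vale.Agent.P224.S7.Piv.Dn

/-!
Column function z 1 6 2 2 (m = 7): kernel-checked polynomial approximant on `(0, 1)`.
-/

namespace Vale.Agent.P224.S7.K36

open Vale.Agent.P224.SP Vale.Agent.P224.S7

/-- coefficient lists over `DnL` -/
def r : Q4 := ⟨
  [0, 0, 2988472838400, -768464444160, -9136188391680, 2253116839680, 9564606696960,
  -2229112327680, -3681210032640, 773017136640, 271044506880, -28842428160, -6780775680,
  285223680, 55157760],
  [0, 0, -3586167406080, -3586167406080, 7745633683200, 7745633683200, -4751684259840,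
  -4751684259840, 611314905600, 611314905600, -19274734080, -19274734080, 177811200, 177811200],
  [0, 0, 1793083703040, 768464444160, -4147268428800, -1526473589760, 2894126215680,
  787988113920, -559099376640, -30281610240, 19343681280, 302641920, -185794560],
  []⟩

/-- reduced coefficient lists -/
def N : Q4 := ⟨
  [0, 0, 1975680, 1467648, -2515968, -1555200, 540288, 87552],
  [0, 0, -2370816, -4741632, -2088576, 564480, 282240],
  [0, 0, 1185408, 1693440, 185472, -294912],
  []⟩

/-- approximant (times `DD`) -/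
def B : List ℤ :=
  [-12, 4836, -17801430061, 10182740630, 22881993786, -8247165701, 29005392447, -113686719377,
  164462316671, -158226613317, 115461337722, -63189794056, 24357219880, -5855841309, 656557861]

/-- error (times `DD`) -/
def E : ℤ := 13

/-- test list -/
def n0 : List ℤ :=
  [201684, -80875284, 68514500472638647, 51101467638421536, -87297783286173999,
  -54498870920099907, 18059948535607447, 4097308146539944, 569853597992252, -958188929990936,
  613952520654487, -159771847469297, -225868760218430, 341706404533235, -223568312732261,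
  76349588940709, -11034767969827]

/-- test list -/
def n1 : List ℤ :=
  [0, 0, -81858374399950848, -163716748799901696, -72113329828528128, 19490089142845440,
  9745044571422720]

/-- test list -/
def n2 : List ℤ :=
  [0, 0, 40929187199975424, 58470267428536320, 6403886432649216, -10182577184833536]

/-- test list -/
def n3 : List ℤ :=
  []

/-- weight list -/
def wt : List ℤ :=
  [218491, 218491, -218491, -218491]

/-- factor -/
def fac : List ℤ := [1512630, -1512630, -1574370, 1574370, 62370, -62370, -630, 630]

lemma e0 : eqL n0 (addL (smulL DD N.n0) (smulL (-1) (mulL B (dnL 16807 0 0 2 0 0)))) = true := by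
  decide +kernel

lemma e1 : eqL n1 (smulL DD N.n1) = true := by
  decide +kernel

lemma e2 : eqL n2 (smulL DD N.n2) = true := by
  decide +kernel

lemma e3 : eqL n3 (smulL DD N.n3) = true := by
  decide +kernel

lemma e4 : eqL wt (smulL E (mulL (powZ 1) (dnL 16807 0 0 2 0 0))) = true := by
  decide +kernel

lemma hv : vanT n1 n2 n3 [] [] 0 0 = true := by
  decide +kernel

lemma h0 : chkL05 n0 n1 n2 n3 wt 0 = true := by
  decide +kernel

lemma h6 : chkLp5 n0 n1 n2 n3 wt 0 6 1 2 128 = true := by
  decide +kernel

lemma h5 : chkLp5 n0 n1 n2 n3 wt 0 5 1 2 64 = true := by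
  decide +kernel

lemma h4 : chkLp5 n0 n1 n2 n3 wt 0 4 1 2 32 = true := by
  decide +kernel

lemma h3 : chkLp5 n0 n1 n2 n3 wt 0 3 1 2 16 = true := by
  decide +kernel

lemma h2 : chkLp5 n0 n1 n2 n3 wt 0 2 1 2 8 = true := by
  decide +kernel

lemma r1 : chkN 2 1 4 4 (addL (rW5 n1 n2 n3 wt 0) (rM n0 n1 n2 n3 [] [] 0)) = true := by
  decide +kernel

lemma r2 : chkN 2 1 4 4 (addL (rW5 n1 n2 n3 wt 0)
      (smulL (-1) (rM n0 n1 n2 n3 [] [] 0))) = true := by
  decide +kernel

lemma d0 : eqL r.n0 (mulL fac N.n0) = true := by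
  decide +kernel

lemma d1 : eqL r.n1 (mulL fac N.n1) = true := by
  decide +kernel

lemma d2 : eqL r.n2 (mulL fac N.n2) = true := by
  decide +kernel

lemma d3 : eqL r.n3 (mulL fac N.n3) = true := by
  decide +kernel

lemma dd : eqL DnL (mulL fac (dnL 16807 0 0 2 0 0)) = true := by
  decide +kernel

theorem eq {T : ℝ} (h0 : 0 < T) (h1 : T < 1) :
    G4 r T / ev DnL T = qf N 16807 0 0 2 0 0 T :=
  G4_div_eq (by norm_num) d0 d1 d2 d3 dd h0 h1

theorem bd {T : ℝ} (hT0 : 0 < T) (hT1 : T < 1) :
    |(DD : ℝ) * (G4 r T / ev DnL T) - ev B T| ≤ E * (1 - T) ^ 1 := by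
  rw [eq hT0 hT1]
  exact qf_bd (by norm_num) e0 e1 e2 e3 e4 (q := 2) (by norm_num) (by norm_num) hv h0
    h6 h5 h4 h3 h2 r1 r2 hT0 hT1

end Vale.Agent.P224.S7.K36
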