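import Vale.Agent.P224.S7.Piv.Dn

/-!
Column function z 3 6 3 0 (m = 7): kernel-checked polynomial approximant on `(0, 1)`.
-/

namespace Vale.Agent.P224.S7.K42

open Vale.Agent.P224.SP Vale.Agent.P224.S7

/-- coefficient lists over `DnL` -/
def r : Q4 := ⟨
  [0, 0, -89654185152000, 23053933324800, 274085651750400, -67593505190400, -286938200908800,
  66873369830400, 110436300979200, -23190514099200, -8131335206400, 865272844800, 203423270400,
  -8556710400, -1654732800],
  [0, 0, 107585022182400, 107585022182400, -232369010496000, -232369010496000, 142550527795200,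
  142550527795200, -18339447168000, -18339447168000, 578242022400, 578242022400, -5334336000,
  -5334336000],
  [0, 0, -53792511091200, -23053933324800, 124418052864000, 45794207692800, -86823786470400,
  -23639643417600, 16772981299200, 908448307200, -580310438400, -9079257600, 5573836800],
  []⟩

/-- reduced coefficient lists -/
def N : Q4 := ⟨
  [0, 0, -59270400, -44029440, 75479040, 46656000, -16208640, -2626560],
  [0, 0, 71124480, 142248960, 62657280, -16934400, -8467200],
  [0, 0, -35562240, -50803200, -5564160, 8847360],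
  []⟩

/-- approximant (times `DD`) -/
def B : List ℤ :=
  [758, -262106, 534048904081, -305607018929, -685076237410, 238068777480, -828686441067,
  3284207176347, -4662764569425, 4333632695987, -3018661301102, 1564076845903, -568203363762,
  128523757738, -13558964493]

/-- error (times `DD`) -/
def E : ℤ := 770

/-- test list -/
def n0 : List ℤ :=
  [-12739706, 4379736130, -2055435111131969189, -1533042131431367809, 2618914338968873029,
  1635078799062701083, -542204622793611701, -122032003978367931, -18100522892389014,
  28701133502334412, -16569004836959729, 2346476704697398, 7709555324185806, -9347950475898419,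
  5457481858376653, -1704327763834864, 227885516233851]

/-- test list -/
def n1 : List ℤ :=
  [0, 0, 2455751231998525440, 4911502463997050880, 2163399894855843840, -584702674285363200,
  -292351337142681600]

/-- test list -/
def n2 : List ℤ :=
  [0, 0, -1227875615999262720, -1754108022856089600, -192116592979476480, 305477315545006080]

/-- test list -/
def n3 : List ℤ :=
  []

/-- weight list -/
def wt : List ℤ :=
  [12941390, 0, -25882780, 0, 12941390]

/-- factor -/
def fac : List ℤ := [1512630, -1512630, -1574370, 1574370, 62370, -62370, -630, 630]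

lemma e0 : eqL n0 (addL (smulL DD N.n0) (smulL (-1) (mulL B (dnL 16807 0 0 2 0 0)))) = true := by
  decide +kernel

lemma e1 : eqL n1 (smulL DD N.n1) = true := by
  decide +kernel

lemma e2 : eqL n2 (smulL DD N.n2) = true := by
  decide +kernel

lemma e3 : eqL n3 (smulL DD N.n3) = true := by
  decide +kernel

lemma e4 : eqL wt (smulL E (mulL (powZ 2) (dnL 16807 0 0 2 0 0))) = true := by
  decide +kernel

lemma hv : vanT n1 n2 n3 [] [] 0 0 = true := by
  decide +kernel

lemma h0 : chkL05 n0 n1 n2 n3 wt 0 = true := by
  decide +kernel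

lemma h6 : chkLp5 n0 n1 n2 n3 wt 0 6 1 2 128 = true := by
  decide +kernel

lemma h5 : chkLp5 n0 n1 n2 n3 wt 0 5 1 2 64 = true := by
  decide +kernel

lemma h4 : chkLp5 n0 n1 n2 n3 wt 0 4 1 2 32 = true := by
  decide +kernel

lemma h3 : chkLp5 n0 n1 n2 n3 wt 0 3 1 2 16 = true := by
  decide +kernel

lemma h2 : chkLp5 n0 n1 n2 n3 wt 0 2 1 2 8 = true := by
  decide +kernel

lemma r1 : chkN 2 1 4 4 (addL (rW5 n1 n2 n3 wt 0) (rM n0 n1 n2 n3 [] [] 0)) = true := by
  decide +kernel

lemma r2 : chkN 2 1 4 4 (addL (rW5 n1 n2 n3 wt 0)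
      (smulL (-1) (rM n0 n1 n2 n3 [] [] 0))) = true := by
  decide +kernel

lemma d0 : eqL r.n0 (mulL fac N.n0) = true := by
  decide +kernel

lemma d1 : eqL r.n1 (mulL fac N.n1) = true := by
  decide +kernel

lemma d2 : eqL r.n2 (mulL fac N.n2) = true := by
  decide +kernel

lemma d3 : eqL r.n3 (mulL fac N.n3) = true := by
  decide +kernel

lemma dd : eqL DnL (mulL fac (dnL 16807 0 0 2 0 0)) = true := by
  decide +kernel

theorem eq {T : ℝ} (h0 : 0 < T) (h1 : T < 1) :
    G4 r T / ev DnL T = qf N 16807 0 0 2 0 0 T :=
  G4_div_eq (by norm_num) d0 d1 d2 d3 dd h0 h1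

theorem bd {T : ℝ} (hT0 : 0 < T) (hT1 : T < 1) :
    |(DD : ℝ) * (G4 r T / ev DnL T) - ev B T| ≤ E * (1 - T) ^ 2 := by
  rw [eq hT0 hT1]
  exact qf_bd (by norm_num) e0 e1 e2 e3 e4 (q := 2) (by norm_num) (by norm_num) hv h0
    h6 h5 h4 h3 h2 r1 r2 hT0 hT1

end Vale.Agent.P224.S7.K42
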