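import Vale.Agent.P224.S7.Piv.Gen

/-!
Common denominator of the column functions (`m = 7`) and the common scale of the approximants.
-/

namespace Vale.Agent.P224.S7

open Set Real Vale.Agent.P224.SP

/-- `10588410 * ((1 - T) ^ 2 * (1 + T) ^ 3 * (7 - T) ^ 2 * (7 + T) ^ 2)` -/
def DnL : List ℤ :=
  [25422772410, 25422772410, -51883209000, -51883209000, 27508689180, 27508689180, -1058841000,
  -1058841000, 10588410, 10588410]

/-- common scale of the approximants -/
def DD : ℤ := 34527510528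

lemma ev_DnL (T : ℝ) : ev DnL T = 10588410 * ((1 - T) ^ 2 * (1 + T) ^ 3 * (7 - T) ^ 2 * (7 + T) ^ 2) := by
  simp only [DnL, ev_cons, ev_nil]; push_cast; ring

lemma DnL_pos {T : ℝ} (hT0 : 0 < T) (hT1 : T < 1) : 0 < ev DnL T := by
  rw [ev_DnL]
  have h0 : 0 < (1 - T) ^ 2 := pow_pos (by linarith) 2
  have h1 : 0 < (1 + T) ^ 3 := pow_pos (by linarith) 3
  have h2 : 0 < (7 - T) ^ 2 := pow_pos (by linarith) 2
  have h3 : 0 < (7 + T) ^ 2 := pow_pos (by linarith) 2
  positivity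

lemma G4_div_eq {r N : Q4} {fac : List ℤ} {c : ℤ} {a b i j k : ℕ} (hc : 0 < c)
    (h0 : eqL r.n0 (mulL fac N.n0) = true) (h1 : eqL r.n1 (mulL fac N.n1) = true)
    (h2 : eqL r.n2 (mulL fac N.n2) = true) (h3 : eqL r.n3 (mulL fac N.n3) = true)
    (hd : eqL DnL (mulL fac (dnL c a b i j k)) = true) {T : ℝ} (hT0 : 0 < T) (hT1 : T < 1) :
    G4 r T / ev DnL T = qf N c a b i j k T := by
  have hD := (DnL_pos hT0 hT1).ne'
  have e1 : ev DnL T = ev fac T * dnR c a b i j k T := by rw [ev_of_eqL hd, ev_mulL, ev_dnL]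
  have e2 : G4 r T = ev fac T * G4 N T := by
    unfold G4
    rw [ev_of_eqL h0, ev_of_eqL h1, ev_of_eqL h2, ev_of_eqL h3]
    simp only [ev_mulL]
    ring
  have hf : ev fac T ≠ 0 := by
    intro h
    apply hD
    rw [e1, h, zero_mul]
  have hp := dnR_pos hc a b i j k hT0 hT1
  unfold qf
  rw [e1, e2, mul_div_mul_left _ _ hf]

end Vale.Agent.P224.S7
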