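import Vale.Agent.P224.S7.Piv.Dn

/-!
Column function z 0 6 2 2 (m = 7): kernel-checked polynomial approximant on `(0, 1)`.
-/

namespace Vale.Agent.P224.S7.K27

open Vale.Agent.P224.SP Vale.Agent.P224.S7

/-- coefficient lists over `DnL` -/
def r : Q4 := ⟨
  [0, 0, 111320613230400, -20337269206464, -322652604621312, 62805791639808, 309974472247104,
  -64104813291456, -101985081972480, 22260976174080, 3395979131328, -624574843200,
  -54553056768, -196293888, 1188831168, 85821120, -13789440],
  [0, 0, -133584735876480, -133584735876480, 278005430308032, 278005430308032,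
  -155638756808640, -155638756808640, 11606764772736, 11606764772736, -395345422080,
  -395345422080, 6687479232, 6687479232, -44452800, -44452800],
  [0, 0, 66792367938240, 36275791011264, -145947255148800, -71391218137344, 89827270130304,
  35332390574208, -9617319081216, -1688739446016, 396733692096, 27176845248, -7105480704,
  -139345920, 46448640],
  [0, 0, 0, -15300980932608, 0, 38876982165504, 0, -30257036587008, 0, 6924793171968, 0,
  -246147600384, 0, 2389782528]⟩

/-- reduced coefficient lists -/
def N : Q4 := ⟨
  [0, 0, 367970400, 300745536, -750763776, -545903040, 435645888, 232137024, -64473600, 718272,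
  -571680, 109440],
  [0, 0, -441564480, -883128960, 17795232, 918719424, 441211680, -36296064, -17795232, 705600,
  352800],
  [0, 0, 220782240, 340691904, -132725376, -363814848, -86305824, 21003264, 737280, -368640],
  [0, 0, 0, -50577408, -50577408, 75866112, 75866112, -18966528, -18966528]⟩

/-- approximant (times `DD`) -/
def B : List ℤ :=
  [390, -155336, -663079491494, 2169658473587, -1847204787594, 296165588870, -593457441327,
  2496376166083, -4675288318593, 5610827675859, -4718424061281, 2817880273472, -1145213141379,
  284244295858, -32485077115]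

/-- error (times `DD`) -/
def E : ℤ := 396

/-- test list -/
def n0 : List ℤ :=
  [-32773650, 12988113460, 12760823771167391010, 10313111180862063343, -26131428851285886898,
  -18674545310666029330, 15350795244548511209, 7776940502322592622, -2358244294962748745,
  264215831103943621, -196542982558864970, -15989082638678135, 172760802402004600,
  -152930124969545105, 32045316223195170, 49784363020369040, -48465047530930205,
  18426702491708980, -2729883455359025]

/-- test list -/
def n1 : List ℤ :=
  [0, 0, -15246122231990845440, -30492244463981690880, 614425060228202496,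
  31721094584438095872, 15233940926276567040, -1253212731884961792, -614425060228202496,
  24362611428556800, 12181305714278400]

/-- test list -/
def n2 : List ℤ :=
  [0, 0, 7623061115995422720, 11763243302164365312, -4582676817172758528,
  -12561620994562719744, -2979925246787715072, 725190418882363392, 25456442962083840,
  -12728221481041920]

/-- test list -/
def n3 : List ℤ :=
  [0, 0, 0, -1746311987198951424, -1746311987198951424, 2619467980798427136,
  2619467980798427136, -654866995199606784, -654866995199606784]

/-- weight list -/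
def wt : List ℤ :=
  [33277860, 33277860, -66555720, -66555720, 33277860, 33277860]

/-- factor -/
def fac : List ℤ := [302526, -302526, -12348, 12348, 126, -126]

lemma e0 : eqL n0 (addL (smulL DD N.n0) (smulL (-1) (mulL B (dnL 84035 0 1 3 0 0)))) = true := by
  decide +kernel

lemma e1 : eqL n1 (smulL DD N.n1) = true := by
  decide +kernel

lemma e2 : eqL n2 (smulL DD N.n2) = true := by
  decide +kernel

lemma e3 : eqL n3 (smulL DD N.n3) = true := by
  decide +kernel

lemma e4 : eqL wt (smulL E (mulL (powZ 1) (dnL 84035 0 1 3 0 0))) = true := by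
  decide +kernel

lemma hv : vanT n1 n2 n3 [] [] 0 0 = true := by
  decide +kernel

lemma h0 : chkL05 n0 n1 n2 n3 wt 0 = true := by
  decide +kernel

lemma h6 : chkLp5 n0 n1 n2 n3 wt 0 6 1 2 128 = true := by
  decide +kernel

lemma h5 : chkLp5 n0 n1 n2 n3 wt 0 5 1 2 64 = true := by
  decide +kernel

lemma h4 : chkLp5 n0 n1 n2 n3 wt 0 4 1 2 32 = true := by
  decide +kernel

lemma h3 : chkLp5 n0 n1 n2 n3 wt 0 3 1 2 16 = true := by
  decide +kernel

lemma h2 : chkLp5 n0 n1 n2 n3 wt 0 2 1 2 8 = true := by
  decide +kernel

lemma r1 : chkN 2 1 4 4 (addL (rW5 n1 n2 n3 wt 0) (rM n0 n1 n2 n3 [] [] 0)) = true := by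
  decide +kernel

lemma r2 : chkN 2 1 4 4 (addL (rW5 n1 n2 n3 wt 0)
      (smulL (-1) (rM n0 n1 n2 n3 [] [] 0))) = true := by
  decide +kernel

lemma d0 : eqL r.n0 (mulL fac N.n0) = true := by
  decide +kernel

lemma d1 : eqL r.n1 (mulL fac N.n1) = true := by
  decide +kernel

lemma d2 : eqL r.n2 (mulL fac N.n2) = true := by
  decide +kernel

lemma d3 : eqL r.n3 (mulL fac N.n3) = true := by
  decide +kernel

lemma dd : eqL DnL (mulL fac (dnL 84035 0 1 3 0 0)) = true := by
  decide +kernel

theorem eq {T : ℝ} (h0 : 0 < T) (h1 : T < 1) :
    G4 r T / ev DnL T = qf N 84035 0 1 3 0 0 T :=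
  G4_div_eq (by norm_num) d0 d1 d2 d3 dd h0 h1

theorem bd {T : ℝ} (hT0 : 0 < T) (hT1 : T < 1) :
    |(DD : ℝ) * (G4 r T / ev DnL T) - ev B T| ≤ E * (1 - T) ^ 1 := by
  rw [eq hT0 hT1]
  exact qf_bd (by norm_num) e0 e1 e2 e3 e4 (q := 2) (by norm_num) (by norm_num) hv h0
    h6 h5 h4 h3 h2 r1 r2 hT0 hT1

end Vale.Agent.P224.S7.K27
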