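import Vale.Agent.P224.S7.Piv.Dn

/-!
Column function z 3 6 2 1 (m = 7): kernel-checked polynomial approximant on `(0, 1)`.
-/

namespace Vale.Agent.P224.S7.K41

open Vale.Agent.P224.SP Vale.Agent.P224.S7

/-- coefficient lists over `DnL` -/
def r : Q4 := ⟨
  [0, 0, -111320613230400, 20337269206464, 322652604621312, -62805791639808, -309974472247104,
  64104813291456, 101985081972480, -22260976174080, -3395979131328, 624574843200, 54553056768,
  196293888, -1188831168, -85821120, 13789440],
  [0, 0, 133584735876480, 133584735876480, -278005430308032, -278005430308032, 155638756808640,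
  155638756808640, -11606764772736, -11606764772736, 395345422080, 395345422080, -6687479232,
  -6687479232, 44452800, 44452800],
  [0, 0, -66792367938240, -36275791011264, 145947255148800, 71391218137344, -89827270130304,
  -35332390574208, 9617319081216, 1688739446016, -396733692096, -27176845248, 7105480704,
  139345920, -46448640],
  [0, 0, 0, 15300980932608, 0, -38876982165504, 0, 30257036587008, 0, -6924793171968, 0,
  246147600384, 0, -2389782528]⟩

/-- reduced coefficient lists -/
def N : Q4 := ⟨
  [0, 0, -367970400, -300745536, 750763776, 545903040, -435645888, -232137024, 64473600,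
  -718272, 571680, -109440],
  [0, 0, 441564480, 883128960, -17795232, -918719424, -441211680, 36296064, 17795232, -705600,
  -352800],
  [0, 0, -220782240, -340691904, 132725376, 363814848, 86305824, -21003264, -737280, 368640],
  [0, 0, 0, 50577408, 50577408, -75866112, -75866112, 18966528, 18966528]⟩

/-- approximant (times `DD`) -/
def B : List ℤ :=
  [-390, 155336, 663079491494, -2169658473587, 1847204787594, -296165588870, 593457441327,
  -2496376166083, 4675288318593, -5610827675859, 4718424061281, -2817880273472, 1145213141379,
  -284244295858, 32485077115]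

/-- error (times `DD`) -/
def E : ℤ := 396

/-- test list -/
def n0 : List ℤ :=
  [32773650, -12988113460, -12760823771167391010, -10313111180862063343, 26131428851285886898,
  18674545310666029330, -15350795244548511209, -7776940502322592622, 2358244294962748745,
  -264215831103943621, 196542982558864970, 15989082638678135, -172760802402004600,
  152930124969545105, -32045316223195170, -49784363020369040, 48465047530930205,
  -18426702491708980, 2729883455359025]

/-- test list -/
def n1 : List ℤ :=
  [0, 0, 15246122231990845440, 30492244463981690880, -614425060228202496,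
  -31721094584438095872, -15233940926276567040, 1253212731884961792, 614425060228202496,
  -24362611428556800, -12181305714278400]

/-- test list -/
def n2 : List ℤ :=
  [0, 0, -7623061115995422720, -11763243302164365312, 4582676817172758528,
  12561620994562719744, 2979925246787715072, -725190418882363392, -25456442962083840,
  12728221481041920]

/-- test list -/
def n3 : List ℤ :=
  [0, 0, 0, 1746311987198951424, 1746311987198951424, -2619467980798427136,
  -2619467980798427136, 654866995199606784, 654866995199606784]

/-- weight list -/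
def wt : List ℤ :=
  [33277860, 33277860, -66555720, -66555720, 33277860, 33277860]

/-- factor -/
def fac : List ℤ := [302526, -302526, -12348, 12348, 126, -126]

lemma e0 : eqL n0 (addL (smulL DD N.n0) (smulL (-1) (mulL B (dnL 84035 0 1 3 0 0)))) = true := by
  decide +kernel

lemma e1 : eqL n1 (smulL DD N.n1) = true := by
  decide +kernel

lemma e2 : eqL n2 (smulL DD N.n2) = true := by
  decide +kernel

lemma e3 : eqL n3 (smulL DD N.n3) = true := by
  decide +kernel

lemma e4 : eqL wt (smulL E (mulL (powZ 1) (dnL 84035 0 1 3 0 0))) = true := by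
  decide +kernel

lemma hv : vanT n1 n2 n3 [] [] 0 0 = true := by
  decide +kernel

lemma h0 : chkL05 n0 n1 n2 n3 wt 0 = true := by
  decide +kernel

lemma h6 : chkLp5 n0 n1 n2 n3 wt 0 6 1 2 128 = true := by
  decide +kernel

lemma h5 : chkLp5 n0 n1 n2 n3 wt 0 5 1 2 64 = true := by
  decide +kernel

lemma h4 : chkLp5 n0 n1 n2 n3 wt 0 4 1 2 32 = true := by
  decide +kernel

lemma h3 : chkLp5 n0 n1 n2 n3 wt 0 3 1 2 16 = true := by
  decide +kernel

lemma h2 : chkLp5 n0 n1 n2 n3 wt 0 2 1 2 8 = true := by
  decide +kernel

lemma r1 : chkN 2 1 4 4 (addL (rW5 n1 n2 n3 wt 0) (rM n0 n1 n2 n3 [] [] 0)) = true := by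
  decide +kernel

lemma r2 : chkN 2 1 4 4 (addL (rW5 n1 n2 n3 wt 0)
      (smulL (-1) (rM n0 n1 n2 n3 [] [] 0))) = true := by
  decide +kernel

lemma d0 : eqL r.n0 (mulL fac N.n0) = true := by
  decide +kernel

lemma d1 : eqL r.n1 (mulL fac N.n1) = true := by
  decide +kernel

lemma d2 : eqL r.n2 (mulL fac N.n2) = true := by
  decide +kernel

lemma d3 : eqL r.n3 (mulL fac N.n3) = true := by
  decide +kernel

lemma dd : eqL DnL (mulL fac (dnL 84035 0 1 3 0 0)) = true := by
  decide +kernel

theorem eq {T : ℝ} (h0 : 0 < T) (h1 : T < 1) :
    G4 r T / ev DnL T = qf N 84035 0 1 3 0 0 T :=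
  G4_div_eq (by norm_num) d0 d1 d2 d3 dd h0 h1

theorem bd {T : ℝ} (hT0 : 0 < T) (hT1 : T < 1) :
    |(DD : ℝ) * (G4 r T / ev DnL T) - ev B T| ≤ E * (1 - T) ^ 1 := by
  rw [eq hT0 hT1]
  exact qf_bd (by norm_num) e0 e1 e2 e3 e4 (q := 2) (by norm_num) (by norm_num) hv h0
    h6 h5 h4 h3 h2 r1 r2 hT0 hT1

end Vale.Agent.P224.S7.K41
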